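import Mathlib.Analysis.SpecialFunctions.Sqrt
import Mathlib.Analysis.SpecificLimits.Basic
import Mathlib.Algebra.Order.Floor.Ring
import Vale.Agent.P139.A.Defs

/-!
# P139: the three-wave divisors of the Bogoliubov frequencies

`om μ j = √(j (j + 2 μ))`. Outside a countable set of `μ > 0` the numbers
`om μ a + om μ b - om μ c`, `a, b, c ≥ 1` integers, are bounded away from `0`.
-/

set_option autoImplicit false

namespace Vale.Agent.P139.H212

open Set Filter Topology MeasureTheory ProbabilityTheory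

/-- The frequency. -/
noncomputable def om (μ : ℝ) (j : ℕ) : ℝ := Real.sqrt (j * (j + 2 * μ))

/-- The three-wave divisors are bounded below. -/
def Good (μ : ℝ) : Prop :=
  ∃ γ : ℝ, 0 < γ ∧ γ ≤ 1 ∧ ∀ a b c : ℕ, 1 ≤ a → 1 ≤ b → 1 ≤ c → γ ≤ |om μ a + om μ b - om μ c|

section

variable {μ : ℝ}

theorem om_sq (hμ : 0 ≤ μ) (j : ℕ) : om μ j ^ 2 = j * (j + 2 * μ) := by
  unfold om
  rw [Real.sq_sqrt]
  positivity

theorem om_nonneg (j : ℕ) : 0 ≤ om μ j := Real.sqrt_nonneg _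

theorem om_mono (hμ : 0 ≤ μ) {i j : ℕ} (h : i ≤ j) : om μ i ≤ om μ j := by
  unfold om
  apply Real.sqrt_le_sqrt
  have : (i : ℝ) ≤ j := by exact_mod_cast h
  gcongr

theorem one_le_om (hμ : 0 ≤ μ) {j : ℕ} (h : 1 ≤ j) : 1 ≤ om μ j := by
  unfold om
  rw [Real.one_le_sqrt]
  have : (1 : ℝ) ≤ j := by exact_mod_cast h
  nlinarith

/-- The defect `j + μ - om μ j`. -/
noncomputable def gg (μ : ℝ) (j : ℕ) : ℝ := j + μ - om μ j

theorem gg_nonneg (hμ : 0 ≤ μ) (j : ℕ) : 0 ≤ gg μ j := by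
  unfold gg
  have h : om μ j ≤ j + μ := by
    apply le_of_sq_le_sq _ (by positivity)
    rw [om_sq hμ]
    nlinarith
  linarith

theorem gg_le (hμ : 0 ≤ μ) {j : ℕ} (h : 1 ≤ j) : gg μ j ≤ μ ^ 2 / j := by
  have hj : (1 : ℝ) ≤ j := by exact_mod_cast h
  have h1 := om_sq hμ j
  have h2 := om_nonneg (μ := μ) j
  have h3 := gg_nonneg hμ j
  rw [le_div_iff₀ (by linarith)]
  have h4 : gg μ j * (j + μ + om μ j) = μ ^ 2 := by
    unfold gg
    ring_nf
    rw [h1]
    ring
  nlinarith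

theorem gg_tendsto (hμ : 0 ≤ μ) : Tendsto (gg μ) atTop (𝓝 0) := by
  have h1 : Tendsto (fun j : ℕ => μ ^ 2 / (j : ℝ)) atTop (𝓝 0) :=
    tendsto_const_div_atTop_nhds_zero_nat _
  refine tendsto_of_tendsto_of_tendsto_of_le_of_le' tendsto_const_nhds h1
    (Eventually.of_forall fun j => gg_nonneg hμ j) ?_
  filter_upwards [eventually_ge_atTop 1] with j hj using gg_le hμ hj

theorem om_eq (j : ℕ) : om μ j = j + μ - gg μ j := by unfold gg; ring

/-- Gluing of finitely many lower bounds. -/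
theorem glue {Q : ℕ → ℝ → Prop} (hQ : ∀ j γ γ', γ' ≤ γ → Q j γ → Q j γ')
    (h1 : ∀ j, ∃ γ, 0 < γ ∧ Q j γ) (h2 : ∃ J, ∃ γ, 0 < γ ∧ ∀ j, J ≤ j → Q j γ) :
    ∃ γ, 0 < γ ∧ ∀ j, Q j γ := by
  obtain ⟨J, γ, hγ, h⟩ := h2
  choose g hg0 hg using h1
  have hne : (insert γ ((Finset.range J).image g)).Nonempty := ⟨γ, by simp⟩
  refine ⟨(insert γ ((Finset.range J).image g)).min' hne, ?_, fun j => ?_⟩
  · rw [Finset.lt_min'_iff]
    intro y hy
    rw [Finset.mem_insert, Finset.mem_image] at hy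
    obtain rfl | ⟨j, -, rfl⟩ := hy
    · exact hγ
    · exact hg0 j
  · rcases lt_or_ge j J with hj | hj
    · refine hQ j _ _ (Finset.min'_le _ _ ?_) (hg j)
      rw [Finset.mem_insert, Finset.mem_image]
      exact Or.inr ⟨j, Finset.mem_range.2 hj, rfl⟩
    · refine hQ j _ _ (Finset.min'_le _ _ ?_) (h j hj)
      simp

/-- The distance of a non-integer to the integers. -/
theorem dist_int {x : ℝ} (hx : ∀ k : ℤ, x ≠ k) : ∃ δ : ℝ, 0 < δ ∧ ∀ k : ℤ, δ ≤ |k + x| := by
  refine ⟨min (Int.fract x) (1 - Int.fract x), lt_min ?_ ?_, fun k => ?_⟩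
  · have := Int.fract_nonneg x
    rcases this.lt_or_eq with h | h
    · exact h
    · exact absurd (by
        have := Int.self_sub_floor x
        rw [← h] at this
        linarith : x = ⌊x⌋) (hx _)
  · linarith [Int.fract_lt_one x]
  · have h0 := Int.fract_nonneg x
    have h1 := Int.fract_lt_one x
    have e : (k : ℝ) + x = ((k + ⌊x⌋ : ℤ) : ℝ) + Int.fract x := by
      push_cast
      linarith [Int.self_sub_floor x]
    rw [e]
    rcases le_or_gt 0 (k + ⌊x⌋) with h | h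
    · have : (0 : ℝ) ≤ ((k + ⌊x⌋ : ℤ) : ℝ) := by exact_mod_cast h
      rw [abs_of_nonneg (by linarith)]
      linarith [min_le_left (Int.fract x) (1 - Int.fract x)]
    · have h' : k + ⌊x⌋ ≤ -1 := by omega
      have : ((k + ⌊x⌋ : ℤ) : ℝ) ≤ -1 := by exact_mod_cast h'
      rw [abs_of_nonpos (by linarith)]
      linarith [min_le_right (Int.fract x) (1 - Int.fract x)]

/-- The three conditions. -/
theorem good_of (hμ : 0 < μ) (h1 : ∀ k : ℤ, μ ≠ k) (h2 : ∀ a : ℕ, 1 ≤ a → ∀ k : ℤ, om μ a ≠ k)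
    (h3 : ∀ a b c : ℕ, 1 ≤ a → 1 ≤ b → 1 ≤ c → om μ a + om μ b - om μ c ≠ 0) : Good μ := by
  have hμ0 := hμ.le
  -- both `a` and `b` large
  have hAB : ∃ J : ℕ, ∃ γ : ℝ, 0 < γ ∧ ∀ a, J ≤ a → ∀ b, J ≤ b → ∀ c, 1 ≤ a → 1 ≤ b → 1 ≤ c →
      γ ≤ |om μ a + om μ b - om μ c| := by
    obtain ⟨δ, hδ, hd⟩ := dist_int h1
    obtain ⟨J, hJ⟩ := eventually_atTop.1 ((gg_tendsto hμ0).eventually (gt_mem_nhds
      (show (0 : ℝ) < δ / 4 by positivity)))
    refine ⟨J, min (δ / 2) 1, by positivity, fun a ha b hb c ha1 hb1 hc1 => ?_⟩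
    rcases le_or_gt J c with hc | hc
    · refine (min_le_left _ _).trans ?_
      have e : om μ a + om μ b - om μ c
          = (((a + b - c : ℤ) : ℝ) + μ) + (gg μ c - gg μ a - gg μ b) := by
        rw [om_eq a, om_eq b, om_eq c]
        push_cast
        ring
      rw [e]
      have k1 := hd (a + b - c : ℤ)
      have k2 : |gg μ c - gg μ a - gg μ b| ≤ δ / 2 := by
        have := hJ a ha
        have := hJ b hb
        have := hJ c hc
        have := gg_nonneg hμ0 a
        have := gg_nonneg hμ0 b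
        have := gg_nonneg hμ0 c
        rw [abs_le]
        constructor <;> linarith
      have k3 := abs_sub_abs_le_abs_sub (((a + b - c : ℤ) : ℝ) + μ)
        (-(gg μ c - gg μ a - gg μ b))
      rw [abs_neg, sub_neg_eq_add] at k3
      linarith
    · refine (min_le_right _ _).trans ?_
      have k1 := om_mono hμ0 (hc.le.trans ha)
      have k2 := one_le_om hμ0 hb1
      rw [abs_of_nonneg (by linarith)]
      linarith
  -- `a` fixed
  have hA : ∀ a : ℕ, ∃ γ : ℝ, 0 < γ ∧ ∀ b c, 1 ≤ a → 1 ≤ b → 1 ≤ c →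
      γ ≤ |om μ a + om μ b - om μ c| := by
    intro a
    rcases Nat.lt_or_ge a 1 with ha | ha
    · exact ⟨1, one_pos, fun b c h => absurd h (by omega)⟩
    refine glue (Q := fun b γ => ∀ c, 1 ≤ a → 1 ≤ b → 1 ≤ c → γ ≤ |om μ a + om μ b - om μ c|)
      (fun b γ γ' h hb c k1 k2 k3 => h.trans (hb c k1 k2 k3)) (fun b => ?_) ?_ |>.imp
        fun γ h => ⟨h.1, fun b c => h.2 b c⟩
    · -- `b` fixed
      rcases Nat.lt_or_ge b 1 with hb | hb
      · exact ⟨1, one_pos, fun c _ h => absurd h (by omega)⟩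
      refine glue (Q := fun c γ => 1 ≤ a → 1 ≤ b → 1 ≤ c → γ ≤ |om μ a + om μ b - om μ c|)
        (fun c γ γ' h hc k1 k2 k3 => h.trans (hc k1 k2 k3)) (fun c => ?_) ?_
      · rcases Nat.lt_or_ge c 1 with hc | hc
        · exact ⟨1, one_pos, fun _ _ h => absurd h (by omega)⟩
        exact ⟨_, abs_pos.2 (h3 a b c ha hb hc), fun _ _ _ => le_rfl⟩
      · obtain ⟨J, hJ⟩ := exists_nat_ge (om μ a + om μ b + 1)
        refine ⟨max J 1, 1, one_pos, fun c hc _ _ hc1 => ?_⟩
        have k1 : (J : ℝ) ≤ c := by exact_mod_cast (le_max_left _ _).trans hc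
        have k2 : (c : ℝ) ≤ om μ c := by
          apply le_of_sq_le_sq _ (om_nonneg _)
          rw [om_sq hμ0]
          have : (0 : ℝ) ≤ c := Nat.cast_nonneg c
          nlinarith
        rw [abs_of_nonpos (by linarith)]
        linarith
    · -- `b` large
      obtain ⟨δ, hδ, hd⟩ := dist_int (x := om μ a) (h2 a ha)
      obtain ⟨J, hJ⟩ := eventually_atTop.1 ((gg_tendsto hμ0).eventually (gt_mem_nhds
        (show (0 : ℝ) < δ / 4 by positivity)))
      refine ⟨J, min (δ / 2) 1, by positivity, fun b hb c ha1 hb1 hc1 => ?_⟩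
      rcases le_or_gt J c with hc | hc
      · refine (min_le_left _ _).trans ?_
        have e : om μ a + om μ b - om μ c
            = (((b - c : ℤ) : ℝ) + om μ a) + (gg μ c - gg μ b) := by
          rw [om_eq b, om_eq c]
          push_cast
          ring
        rw [e]
        have k1 := hd (b - c : ℤ)
        have k2 : |gg μ c - gg μ b| ≤ δ / 2 := by
          have := hJ b hb
          have := hJ c hc
          have := gg_nonneg hμ0 b
          have := gg_nonneg hμ0 c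
          rw [abs_le]
          constructor <;> linarith
        have k3 := abs_sub_abs_le_abs_sub (((b - c : ℤ) : ℝ) + om μ a) (-(gg μ c - gg μ b))
        rw [abs_neg, sub_neg_eq_add] at k3
        linarith
      · refine (min_le_right _ _).trans ?_
        have k1 := om_mono hμ0 (hc.le.trans hb)
        have k2 := one_le_om hμ0 ha1
        rw [abs_of_nonneg (by linarith)]
        linarith
  obtain ⟨J, γ, hγ, hJ⟩ := hAB
  obtain ⟨γ', hγ', h'⟩ := glue
    (Q := fun a γ => ∀ b c, 1 ≤ a → 1 ≤ b → 1 ≤ c → γ ≤ |om μ a + om μ b - om μ c|)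
    (fun a γ γ' h ha b c k1 k2 k3 => h.trans (ha b c k1 k2 k3)) hA (by
      -- `a` large
      obtain ⟨γ₁, hγ₁, h₁⟩ := glue
        (Q := fun b γ => b < J → ∀ a c, 1 ≤ a → 1 ≤ b → 1 ≤ c → γ ≤ |om μ a + om μ b - om μ c|)
        (fun b γ γ' h hb h0 a c k1 k2 k3 => h.trans (hb h0 a c k1 k2 k3))
        (fun b => by
          obtain ⟨γ, hγ, h⟩ := hA b
          refine ⟨γ, hγ, fun _ a c k1 k2 k3 => ?_⟩
          have := h a c k2 k1 k3
          rwa [add_comm (om μ b)] at this)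
        ⟨J, 1, one_pos, fun b hb h0 => absurd h0 (by omega)⟩
      refine ⟨J, min γ γ₁, lt_min hγ hγ₁, fun a ha b c k1 k2 k3 => ?_⟩
      rcases lt_or_ge b J with hb | hb
      · exact (min_le_right _ _).trans (h₁ b hb a c k1 k2 k3)
      · exact (min_le_left _ _).trans (hJ a ha b hb c k1 k2 k3))
  exact ⟨min γ' 1, by positivity, min_le_right _ _,
    fun a b c k1 k2 k3 => (min_le_left _ _).trans (h' a b c k1 k2 k3)⟩

end

end Vale.Agent.P139.H212
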