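import Mathlib.Algebra.Polynomial.Roots
import Mathlib.MeasureTheory.Measure.Lebesgue.EqHaar
import Mathlib.MeasureTheory.Measure.Lebesgue.Complex
import Vale.Agent.P139.H212.NR

/-!
# P139: the three-wave divisors are bounded below almost surely
-/

set_option autoImplicit false

namespace Vale.Agent.P139.H212

open Set Filter Topology MeasureTheory ProbabilityTheory
open Vale.Agent.P139.A (stdComplexGaussian)

theorem quad_finite {A B C : ℝ} (h : ¬ (A = 0 ∧ C = 0)) :
    {x : ℝ | A * x ^ 2 + B * x + C = 0}.Finite := by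
  have hp : (Polynomial.C A * Polynomial.X ^ 2 + Polynomial.C B * Polynomial.X + Polynomial.C C
      : Polynomial ℝ) ≠ 0 := by
    intro h0
    apply h
    constructor
    · have := congrArg (fun p => Polynomial.coeff p 2) h0
      simpa [Polynomial.coeff_X, Polynomial.coeff_C] using this
    · have := congrArg (fun p => Polynomial.coeff p 0) h0
      simpa [Polynomial.coeff_X, Polynomial.coeff_C] using this
  refine (Polynomial.finite_setOfPred_isRoot hp).subset fun x hx => ?_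
  simp only [mem_setOf_eq] at hx
  simp only [mem_setOf_eq, Polynomial.IsRoot.def, Polynomial.eval_add, Polynomial.eval_mul,
    Polynomial.eval_C, Polynomial.eval_pow, Polynomial.eval_X]
  exact hx

theorem three_finite (a b c : ℕ) :
    {μ : ℝ | 0 < μ ∧ 1 ≤ a ∧ 1 ≤ b ∧ 1 ≤ c ∧ om μ a + om μ b - om μ c = 0}.Finite := by
  by_cases h : 1 ≤ a ∧ 1 ≤ b ∧ 1 ≤ c
  swap
  · refine Set.Finite.subset Set.finite_empty fun μ hμ => ?_
    exact h ⟨hμ.2.1, hμ.2.2.1, hμ.2.2.2.1⟩
  obtain ⟨ha, hb, hc⟩ := h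
  have ha' : (1 : ℝ) ≤ a := by exact_mod_cast ha
  have hb' : (1 : ℝ) ≤ b := by exact_mod_cast hb
  have hc' : (1 : ℝ) ≤ c := by exact_mod_cast hc
  refine (quad_finite (A := 16 * a * b - 4 * ((c : ℝ) - a - b) ^ 2)
    (B := 8 * a * b * (a + b) - 4 * ((c : ℝ) ^ 2 - a ^ 2 - b ^ 2) * (c - a - b))
    (C := 4 * (a : ℝ) ^ 2 * b ^ 2 - ((c : ℝ) ^ 2 - a ^ 2 - b ^ 2) ^ 2) ?_).subset ?_
  · rintro ⟨h1, h2⟩
    have h3 : (((a : ℝ) + b) ^ 2 - c ^ 2) * ((c : ℝ) ^ 2 - (a - b) ^ 2) = 0 := by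
      rw [← h2]
      ring
    rcases mul_eq_zero.1 h3 with h4 | h4
    · have h5 : (a : ℝ) + b = c := by
        have : ((a : ℝ) + b - c) * (a + b + c) = 0 := by rw [← h4]; ring
        rcases mul_eq_zero.1 this with h | h
        · linarith
        · linarith
      rw [← h5] at h1
      nlinarith
    · have h5 : ((c : ℝ) - (a - b)) * (c + (a - b)) = 0 := by rw [← h4]; ring
      rcases mul_eq_zero.1 h5 with h | h
      · have e : (c : ℝ) = a - b := by linarith
        rw [e] at h1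
        have : 16 * (b : ℝ) * (a - b) = 0 := by rw [← h1]; ring
        rw [← e] at this
        nlinarith
      · have e : (c : ℝ) = b - a := by linarith
        rw [e] at h1
        have : 16 * (a : ℝ) * (b - a) = 0 := by rw [← h1]; ring
        rw [← e] at this
        nlinarith
  · rintro μ ⟨hμ, -, -, -, h⟩
    have e1 := om_sq hμ.le a
    have e2 := om_sq hμ.le b
    have e3 := om_sq hμ.le c
    have h1 : om μ a + om μ b = om μ c := by linarith
    have h2 : 2 * (om μ a * om μ b) = ((c : ℝ) ^ 2 - a ^ 2 - b ^ 2) + 2 * μ * (c - a - b) := by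
      have : (om μ a + om μ b) ^ 2 = om μ c ^ 2 := by rw [h1]
      nlinarith
    have h3 : 4 * (om μ a ^ 2 * om μ b ^ 2)
        = (((c : ℝ) ^ 2 - a ^ 2 - b ^ 2) + 2 * μ * (c - a - b)) ^ 2 := by
      rw [← h2]
      ring
    rw [e1, e2] at h3
    simp only [mem_setOf_eq]
    linear_combination h3

theorem int_finite (a : ℕ) (k : ℤ) : {μ : ℝ | 0 < μ ∧ 1 ≤ a ∧ om μ a = k}.Finite := by
  refine (Set.finite_singleton (((k : ℝ) ^ 2 / a - a) / 2)).subset ?_
  rintro μ ⟨hμ, ha, h⟩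
  have ha' : (1 : ℝ) ≤ a := by exact_mod_cast ha
  have e := om_sq hμ.le a
  rw [h] at e
  rw [mem_singleton_iff, e]
  field_simp
  ring

/-- The exceptional set is countable. -/
theorem bad_countable : {μ : ℝ | 0 < μ ∧ ¬ Good μ}.Countable := by
  have h1 : (⋃ k : ℤ, {μ : ℝ | μ = k}).Countable :=
    countable_iUnion fun k => by simp
  have h2 : (⋃ a : ℕ, ⋃ k : ℤ, {μ : ℝ | 0 < μ ∧ 1 ≤ a ∧ om μ a = k}).Countable :=
    countable_iUnion fun a => countable_iUnion fun k => (int_finite a k).countable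
  have h3 : (⋃ a : ℕ, ⋃ b : ℕ, ⋃ c : ℕ, {μ : ℝ | 0 < μ ∧ 1 ≤ a ∧ 1 ≤ b ∧ 1 ≤ c ∧
      om μ a + om μ b - om μ c = 0}).Countable :=
    countable_iUnion fun a => countable_iUnion fun b => countable_iUnion fun c =>
      (three_finite a b c).countable
  refine ((h1.union h2).union h3).mono ?_
  rintro μ ⟨hμ, hb⟩
  by_contra hcon
  simp only [mem_union, mem_iUnion, mem_setOf_eq, not_or, not_exists, not_and] at hcon
  exact hb (good_of hμ hcon.1.1 (fun a ha k => hcon.1.2 a k hμ ha)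
    (fun a b c ha hb hc => hcon.2 a b c hμ ha hb hc))

theorem std_ac : stdComplexGaussian ≪ (volume : Measure ℂ) := by
  have h1 : gaussianReal 0 (1 / 2) ≪ (volume : Measure ℝ) :=
    gaussianReal_absolutelyContinuous 0 (by norm_num)
  have h2 : (gaussianReal 0 (1 / 2)).prod (gaussianReal 0 (1 / 2))
      ≪ ((volume : Measure ℝ).prod (volume : Measure ℝ)) := h1.prod h1
  have h3 := h2.map (f := fun z : ℝ × ℝ => (⟨z.1, z.2⟩ : ℂ))
    Complex.measurableEquivRealProd.symm.measurable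
  have h4 : ((volume : Measure ℝ).prod (volume : Measure ℝ)).map
      (fun z : ℝ × ℝ => (⟨z.1, z.2⟩ : ℂ)) = (volume : Measure ℂ) :=
    Complex.volume_preserving_equiv_real_prod.symm.map_eq
  rw [h4] at h3
  exact h3

theorem std_sphere (r : ℝ) : stdComplexGaussian {z : ℂ | ‖z‖ = r} = 0 := by
  apply std_ac
  have : {z : ℂ | ‖z‖ = r} = Metric.sphere 0 r := by
    ext z
    simp
  rw [this]
  exact Measure.addHaar_sphere _ _ _

/-- Almost every `z` is good. -/
theorem std_good {m : ℕ} (hm : 1 ≤ m) :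
    ∀ᵐ z ∂stdComplexGaussian, z ≠ 0 ∧ Good (m * ‖z‖ ^ (2 * m)) := by
  have hsub : {z : ℂ | ¬ (z ≠ 0 ∧ Good (m * ‖z‖ ^ (2 * m)))} ⊆ {z : ℂ | ‖z‖ = 0} ∪
      ⋃ μ ∈ {μ : ℝ | 0 < μ ∧ ¬ Good μ}, {z : ℂ | ‖z‖ = (μ / m) ^ (((2 * m : ℕ) : ℝ)⁻¹)} := by
    intro z hz
    by_cases h0 : z = 0
    · left
      simp [h0]
    right
    have hm0 : (0 : ℝ) < m := by exact_mod_cast hm
    have hz0 : 0 < ‖z‖ := norm_pos_iff.2 h0
    have hng : ¬ Good (m * ‖z‖ ^ (2 * m)) := fun hg => hz ⟨h0, hg⟩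
    simp only [mem_iUnion]
    refine ⟨m * ‖z‖ ^ (2 * m), ⟨by positivity, hng⟩, ?_⟩
    simp only [mem_setOf_eq]
    rw [mul_div_cancel_left₀ _ hm0.ne', Real.pow_rpow_inv_natCast hz0.le (by omega)]
  refine measure_mono_null hsub (measure_union_null (std_sphere 0) ?_)
  exact (measure_biUnion_null_iff bad_countable).2 fun μ _ => std_sphere _

/-- **Almost surely the divisors at `g₀` are bounded below.** -/
theorem ae_good {Ω : Type*} [MeasurableSpace Ω] {P : Measure Ω} {g : Ω → ℂ} (hm : Measurable g)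
    (hg : P.map g = stdComplexGaussian) {m : ℕ} (h1 : 1 ≤ m) :
    ∀ᵐ ω ∂P, g ω ≠ 0 ∧ Good (m * ‖g ω‖ ^ (2 * m)) := by
  have h := std_good h1
  rw [← hg] at h
  exact ae_of_ae_map hm.aemeasurable h

end Vale.Agent.P139.H212
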